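import Crest.Agent.N334.Soft.Defs

/-!
# Row 334 (helper52): interface of the end game of note 245

`N334/End/Main.lean` proves `s0519_of_Q : QStmt h → (statement of S0519 at h)`.
-/

set_option autoImplicit false

open MeasureTheory Filter

namespace Crest.Agent.N334.Soft

open Crest.MathPhysics.Anderson

/-- `∑_y |y|² |G(y, 0; z)|²` in the finite volume `F` -/
noncomputable def FinVol.mom {n : ℕ} (F : FinVol n) (h : ℝ) (z : ℂ)
    (ω : (Fin 2 → ℤ) → unitInterval) : ℝ :=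
  ∑ y, (∑ j, (F.e y j : ℝ) ^ 2) * ‖(F.H h ω - z • (1 : Matrix F.ι F.ι ℂ))⁻¹ y F.o‖ ^ 2

/-- `Q(2⁻ᵏ)^(1/4)` is summable on the energy interval `(α, β]`; the finite volume may depend on the
scale `k` and on `n` -/
def QInt (h α β : ℝ) : Prop :=
  ∃ b : ℕ → ℝ, Summable b ∧ ∀ᶠ k in atTop, ∀ n, ∃ F : FinVol n,
    ∫⁻ a in Set.Ioc α β, ∫⁻ ω, ENNReal.ofReal ((2⁻¹ ^ k) ^ 2 * F.mom h ⟨a, 2⁻¹ ^ k⟩ ω)
      ∂siteMeasure (Fin 2 → ℤ) ≤ ENNReal.ofReal (b k ^ 4)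

/-- almost every energy has a neighbourhood on which the conductivity decays -/
def QStmt (h : ℝ) : Prop :=
  ∀ᵐ E : ℝ, |E| ≤ 4 + h → ∃ α β, α < E ∧ E < β ∧ QInt h α β

end Crest.Agent.N334.Soft
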