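import Crest.Agent.N334.End.Tr

/-!
# Row 334 (helper52): `QStmt h` implies the statement of S0519 (end game of note 245)
-/

set_option autoImplicit false

open Filter Topology Complex MeasureTheory Function Finset Module.End
open scoped InnerProductSpace ComplexConjugate ENNReal

namespace Crest.Agent.N334.End

open Crest.MathPhysics.Anderson Crest.Agent.N334.Soft

section
variable {E : Type} [NormedAddCommGroup E] [InnerProductSpace ℂ E] [CompleteSpace E]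
  {H : E →L[ℂ] E} {f : E}

omit [CompleteSpace E] in
lemma mem_cont : f ∈ (⨆ μ, eigenspace (H : Module.End ℂ E) μ)ᗮ ↔
    ∀ (μ : ℂ) e, H e = μ • e → ⟪e, f⟫_ℂ = 0 := by
  simp only [← Submodule.iInf_orthogonal, Submodule.mem_iInf, Submodule.mem_orthogonal,
    mem_eigenspace_iff, ContinuousLinearMap.coe_coe]

lemma G_mem (hH : IsSelfAdjoint H) {z : ℂ} (hz : z.im ≠ 0)
    (hf : f ∈ (⨆ μ, eigenspace (H : Module.End ℂ E) μ)ᗮ) :
    G H z f ∈ (⨆ μ, eigenspace (H : Module.End ℂ E) μ)ᗮ := by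
  refine mem_cont.2 fun μ e he => ?_
  have hz' : (conj z).im ≠ 0 := by simpa
  have := inner_G hH hz' e f
  rw [conj_conj] at this
  by_cases h : μ = conj z
  · rw [← G_eq hH hz' (u := 0) (w := e) (by rw [he, h, sub_self]), map_zero, inner_zero_left]
  · rw [← this, G_eq hH hz' (w := (μ - conj z)⁻¹ • e), inner_smul_left, mem_cont.1 hf μ e he, mul_zero]
    rw [map_smul, he, smul_comm (conj z), ← smul_sub, ← sub_smul, inv_smul_smul₀ (sub_ne_zero.2 h)]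

lemma P_mem (hH : IsSelfAdjoint H) {a η : ℝ} (hη : 0 < η)
    (hf : f ∈ (⨆ μ, eigenspace (H : Module.End ℂ E) μ)ᗮ) :
    P H a η f ∈ (⨆ μ, eigenspace (H : Module.End ℂ E) μ)ᗮ :=
  P_eq hH hη f ▸ Submodule.smul_mem _ _ (G_mem hH (by simpa using hη.ne') (G_mem hH hη.ne' hf))

lemma ev_G_le (hH : IsSelfAdjoint H) (hf : f ∈ (⨆ μ, eigenspace (H : Module.End ℂ E) μ)ᗮ)
    (α β : ℝ) {δ : ℝ} (hδ : 0 < δ) :
    ∀ᶠ η in 𝓝 (0 : ℝ), ∀ a ∈ Set.Icc α β, 0 < η → η * ‖G H ⟨a, η⟩ f‖ ≤ δ := by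
  refine isCompact_Icc.eventually_forall_of_forall_eventually fun a₀ _ => ?_
  have h1 : IsSelfAdjoint (H - (a₀ : ℂ) • 1) :=
    hH.sub (IsSelfAdjoint.smul (conj_ofReal a₀) (IsSelfAdjoint.one _))
  have h2 : f ∈ (H - (a₀ : ℂ) • 1).kerᗮ := fun e he => mem_cont.1 hf a₀ e (sub_eq_zero.1 he)
  rw [ContinuousLinearMap.orthogonal_ker, h1.adjoint_eq] at h2
  obtain ⟨_, ⟨w, rfl⟩, hw⟩ := Metric.mem_closure_iff.1 h2 _ (half_pos hδ)
  have h3 : Continuous fun p : ℝ × ℝ => (|p.1| + ‖(p.2 + p.1 * I - a₀ : ℂ)‖) * ‖w‖ := by fun_prop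
  filter_upwards [(h3.tendsto' (0, a₀) 0 (by simp)).eventually (gt_mem_nhds (half_pos hδ))]
    with p hp hη
  have h4 : G H ⟨p.2, p.1⟩ f = G H ⟨p.2, p.1⟩ (f - (H w - (a₀ : ℂ) • w)) +
      (w + (p.2 + p.1 * I - a₀ : ℂ) • G H ⟨p.2, p.1⟩ w) := by
    conv_rhs => rhs; lhs; rw [← G_eq hH (z := ⟨p.2, p.1⟩) hη.ne' (w := w) rfl]
    rw [← map_smul, ← map_add, ← map_add, mk_eq_add_mul_I]
    congr 1; module
  have h5 := fun u => norm_G_le hH (z := ⟨p.2, p.1⟩) hη.ne' u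
  simp only [abs_of_pos hη] at h5 hp
  have h6 := (congrArg norm h4).trans_le ((norm_add_le _ _).trans
    (add_le_add_right (norm_add_le _ _) _))
  rw [norm_smul] at h6
  rw [dist_eq_norm] at hw
  change ‖f - (H w - (a₀ : ℂ) • w)‖ < _ at hw
  nlinarith [mul_le_mul_of_nonneg_left h6 hη.le, h5 (f - (H w - (a₀ : ℂ) • w)),
    mul_le_mul_of_nonneg_left (h5 w) (norm_nonneg (p.2 + p.1 * I - a₀ : ℂ))]

end

variable {h α β : ℝ} {ω : (Fin 2 → ℤ) → unitInterval}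

/-- the continuous component of `δ₀` -/
noncomputable def fc (h : ℝ) (ω : (Fin 2 → ℤ) → unitInterval) : Ell2 2 :=
  (⨆ μ, eigenspace (Hm 1 h ω : Module.End ℂ (Ell2 2)) μ)ᗮ.starProjection (dl 0)

lemma inner_P_fc {a η : ℝ} (hη : 0 < η) :
    (⟪P (Hm 1 h ω) a η (fc h ω), P (Hm 1 h ω) a η (dl 0)⟫_ℂ).re = ‖P (Hm 1 h ω) a η (fc h ω)‖ ^ 2 := by
  have hs : IsSelfAdjoint (P (Hm 1 h ω) a η) := cfc_predicate _ _
  have h1 := Submodule.starProjection_inner_eq_zero (dl 0) _ (P_mem (a := a) Hm_sa hη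
    (P_mem (a := a) Hm_sa hη (Submodule.starProjection_apply_mem _ (dl 0)) : _ ∈ (⨆ μ,
      eigenspace (Hm 1 h ω : Module.End ℂ (Ell2 2)) μ)ᗮ))
  have h2 : ∀ u w, ⟪u, P (Hm 1 h ω) a η w⟫_ℂ = ⟪P (Hm 1 h ω) a η u, w⟫_ℂ :=
    fun u w => (hs.isSymmetric u w).symm
  rw [h2, map_sub, inner_sub_left, sub_eq_zero, ← fc] at h1
  rw [← inner_conj_symm, conj_re, h1]
  exact inner_self_eq_norm_sq (𝕜 := ℂ) _

lemma norm_sq_le {d : ℕ} {x y : Ell2 d} (h : (⟪x, y⟫_ℂ).re = ‖x‖ ^ 2) (B : Finset (Fin d → ℤ)) {ε : ℝ}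
    (hε : 0 < ε) : ‖x‖ ^ 2 ≤ ε⁻¹ * ∑ z ∈ B, ‖x z‖ ^ 2 + ε * ‖y‖ ^ 2 + out B y ^ 2 := by
  have h1 : (⟪x, y - fs B y⟫_ℂ).re ≤ ‖x‖ * out B y := (re_le_norm _).trans (norm_inner_le_norm _ _)
  have h2 : 2 * (⟪x, fs B y⟫_ℂ).re ≤ ε⁻¹ * ∑ z ∈ B, ‖x z‖ ^ 2 + ε * ∑ z ∈ B, ‖y z‖ ^ 2 := by
    simp only [fs, inner_sum, re_sum, mul_sum, ← sum_add_distrib, lp.inner_single_right]
    refine sum_le_sum fun z _ => ?_
    have h3 : (⟪x z, y z⟫_ℂ).re ≤ ‖x z‖ * ‖y z‖ := (re_le_norm _).trans (norm_inner_le_norm _ _)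
    have h4 : 0 ≤ ε⁻¹ * (‖x z‖ - ε * ‖y z‖) ^ 2 := by positivity
    have h5 : ε⁻¹ * (‖x z‖ - ε * ‖y z‖) ^ 2 =
      ε⁻¹ * ‖x z‖ ^ 2 - 2 * (‖x z‖ * ‖y z‖) + ε * ‖y z‖ ^ 2 := by field_simp; ring
    linarith
  have h3 := mul_nonneg hε.le ((sq_nonneg _).trans_eq (out_sq B y))
  rw [inner_sub_right, sub_re, h] at h1
  nlinarith [sq_nonneg (‖x‖ - out B y)]

lemma tendsto_fc (hαβ : α ≤ β) (hT : ∀ ε > 0, ∃ B, ∀ᶠ k in atTop, T 1 h (2⁻¹ ^ k) α β B ω ≤ ε) :
    Tendsto (fun k : ℕ => ∫ a in α..β, 2⁻¹ ^ k * ‖P (Hm 1 h ω) a (2⁻¹ ^ k) (fc h ω)‖ ^ 2) atTop (𝓝 0) := by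
  refine tendsto_order.2 ⟨fun c hc => Eventually.of_forall fun k => hc.trans_le
    (intervalIntegral.integral_nonneg hαβ fun a _ => by positivity), fun c hc => ?_⟩
  set ε := c / 10
  have hε : 0 < ε := by positivity
  obtain ⟨B, hB⟩ := hT ε hε
  filter_upwards [hB, (tendsto_pow_atTop_nhds_zero_of_lt_one (r := (2⁻¹ : ℝ)) (by norm_num)
    (by norm_num)).eventually (ev_G_le (H := Hm 1 h ω) (f := fc h ω) Hm_sa
      (Submodule.starProjection_apply_mem _ (dl 0)) α β (δ := ε / (#B + 1)) (by positivity))] with k h1 h2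
  have hη : (0 : ℝ) < 2⁻¹ ^ k := by positivity
  generalize (2⁻¹ : ℝ) ^ k = η at h1 h2 hη
  have c1 := cont_Pa (τ := 1) (h := h) (ω := ω) hη (fc h ω)
  have c2 := cont_Pa (τ := 1) (h := h) (ω := ω) hη (dl 0)
  have c3 := fun z => cont_ga (τ := 1) (h := h) (ω := ω) hη z z
  have c4 := cont_out B
  have h3 : ∀ z, ∫ a in α..β, (g 1 h a η ω z z).im ≤ Real.pi := fun z => by
    simp only [← qf_dl hη]
    rw [qf_int Hm_sa _ (cont_pk2 hη)]
    exact (qf_mono _ (intervalIntegral.continuous_parametric_intervalIntegral_of_continuous'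
      (f := fun l a => pk η (l - a)) ((continuous_pk hη).comp (continuous_fst.sub continuous_snd))
      _ _) continuous_const fun l _ => int_pk_le hη l α β).trans_eq (by simp [qf_const Hm_sa])
  refine (intervalIntegral.integral_mono_on hαβ (Continuous.intervalIntegrable (by fun_prop) _ _)
    (g := fun a => ε / (#B + 1) * ∑ z ∈ B, (g 1 h a η ω z z).im + ε * (η *
      ‖P (Hm 1 h ω) a η (dl 0)‖ ^ 2) + η * out B (P (Hm 1 h ω) a η (dl 0)) ^ 2)
    (Continuous.intervalIntegrable (by fun_prop) _ _) fun a ha => ?_).trans_lt ?_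
  · refine (mul_le_mul_of_nonneg_left (norm_sq_le (inner_P_fc hη) B hε) hη.le).trans ?_
    rw [mul_add, mul_add, mul_left_comm η ε, add_le_add_iff_right, add_le_add_iff_right, mul_sum,
      mul_sum, mul_sum]
    refine sum_le_sum fun z _ => ?_
    have h4 := norm_inner_P_sq (H := Hm 1 h ω) (a := a) Hm_sa hη (dl z) (fc h ω)
    rw [inner_dl, qf_dl hη, qf_pk Hm_sa hη] at h4
    have h5 := pow_le_pow_left₀ (by positivity) (h2 a ha hη) 2
    have h6 : (ε / (#B + 1)) ^ 2 ≤ ε * (ε / (#B + 1)) := by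
      rw [sq]; gcongr; exact div_le_self hε.le (by simp)
    rw [mul_left_comm, inv_mul_le_iff₀ hε]
    nlinarith [mul_le_mul_of_nonneg_left h4 hη.le, mul_le_mul_of_nonneg_left (h5.trans h6)
      (im_g_pos (τ := 1) (h := h) (a := a) (ω := ω) hη z).le]
  · rw [intervalIntegral.integral_add (Continuous.intervalIntegrable (by fun_prop) _ _)
      (Continuous.intervalIntegrable (by fun_prop) _ _), intervalIntegral.integral_add
      (Continuous.intervalIntegrable (by fun_prop) _ _)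
      (Continuous.intervalIntegrable (by fun_prop) _ _), intervalIntegral.integral_const_mul,
      intervalIntegral.integral_const_mul, intervalIntegral.integral_finsetSum fun z _ =>
        Continuous.intervalIntegrable (by fun_prop) _ _, ← mm, ← T]
    have h4 := sum_le_card_nsmul B _ _ fun z _ => h3 z
    have h5 : ε / (#B + 1) * (#B • Real.pi) ≤ ε * Real.pi := by
      rw [nsmul_eq_mul, ← mul_assoc, div_mul_eq_mul_div, mul_div_assoc]
      exact mul_le_mul_of_nonneg_right (mul_le_of_le_one_right hε.le ((div_le_one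
        (by positivity)).2 (le_add_of_nonneg_right zero_le_one))) Real.pi_pos.le
    have h6 : c = 10 * ε := by simp only [ε]; ring
    nlinarith [mul_le_mul_of_nonneg_left h4 (div_nonneg hε.le B.card.cast_add_one_pos.le), Real.pi_le_four,
      mul_le_mul_of_nonneg_left (mm_le (τ := 1) (h := h) (ω := ω) hη hαβ) hε.le]

lemma fc_le (hh : 0 < h) {ι : Type} [Fintype ι] {α β : ι → ℝ} (hαβ : ∀ i, α i ≤ β i)
    (hT : ∀ i, ∀ ε > 0, ∃ B, ∀ᶠ k in atTop, T 1 h (2⁻¹ ^ k) (α i) (β i) B ω ≤ ε) :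
    ENNReal.ofReal (1 / 4 * ‖fc h ω‖ ^ 2) ≤ liminf (fun k : ℕ => ∫⁻ a in Set.Icc (-(4 + h)) (4 + h) \
      ⋃ i, Set.Ioc (α i) (β i), ENNReal.ofReal (g 1 h a (2⁻¹ ^ k) ω 0 0).im) atTop := by
  have h1 := ENNReal.Tendsto.sub (tendsto_const_nhds (x := ENNReal.ofReal (1 / 4 * ‖fc h ω‖ ^ 2)))
    (tendsto_finsetSum univ fun i _ => ENNReal.tendsto_ofReal (tendsto_fc (hαβ i) (hT i)))
    (Or.inl ENNReal.ofReal_ne_top)
  simp only [ENNReal.ofReal_zero, sum_const_zero, tsub_zero] at h1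
  refine h1.liminf_eq.symm.trans_le (liminf_le_liminf (Eventually.of_forall fun k => ?_))
  have hη : (0 : ℝ) < 2⁻¹ ^ k := by positivity
  have hη1 : (2⁻¹ : ℝ) ^ k ≤ 4 + h := (pow_le_one₀ (by norm_num) (by norm_num)).trans (by linarith)
  generalize (2⁻¹ : ℝ) ^ k = η at hη hη1
  have h2 : ∀ α β, α ≤ β → ENNReal.ofReal (∫ a in α..β, η * ‖P (Hm 1 h ω) a η (fc h ω)‖ ^ 2) =
      ∫⁻ a in Set.Ioc α β, ENNReal.ofReal (η * ‖P (Hm 1 h ω) a η (fc h ω)‖ ^ 2) := fun α β h => by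
    rw [intervalIntegral.integral_of_le h]
    exact ofReal_integral_eq_lintegral_ofReal (((cont_Pa hη _).norm.pow 2).const_mul
      η).integrableOn_Ioc (Eventually.of_forall fun a => by positivity)
  have h3 : 1 / 4 * ‖fc h ω‖ ^ 2 ≤ ∫ a in -(4 + h)..4 + h, η * ‖P (Hm 1 h ω) a η (fc h ω)‖ ^ 2 := by
    simp only [norm_P_sq Hm_sa hη]
    rw [qf_int Hm_sa _ (k := fun a l => η * pk η (l - a) ^ 2)
      (by exact ((cont_pk2 hη).pow 2).const_mul η), ← qf_const (H := Hm 1 h ω) Hm_sa]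
    exact qf_mono _ continuous_const (cont_kap hη _ _) fun l hl =>
      kap_ge hη hη1 (hl.trans (norm_H_le hh ω))
  rw [tsub_le_iff_left]
  simp only [h2 _ _ (hαβ _)]
  refine (ENNReal.ofReal_le_ofReal h3).trans ((h2 _ _ (by linarith)).trans_le ((lintegral_mono_set
    (Set.Ioc_subset_Icc_self.trans (le_sup_sdiff (a := ⋃ i, Set.Ioc (α i) (β i))))).trans
    ((lintegral_union_le _ _ _).trans (add_le_add ((lintegral_iUnion_le _ _).trans_eq
      (tsum_fintype _)) (lintegral_mono fun a => ENNReal.ofReal_le_ofReal ?_)))))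
  have h4 := (inner_P_fc (h := h) (ω := ω) (a := a) hη).symm.trans_le
    ((re_le_norm _).trans (norm_inner_le_norm _ _))
  have h5 : η * ‖P (Hm 1 h ω) a η (dl 0)‖ ^ 2 ≤ (g 1 h a η ω 0 0).im := by
    rw [norm_P_sq Hm_sa hη, ← qf_dl hη]
    exact qf_mono _ (((cont_pk hη a).pow 2).const_mul η) (cont_pk hη a) fun l _ => by
      nlinarith [mul_pk_le hη (l - a), pk_nonneg hη.le (l - a)]
  refine le_trans (mul_le_mul_of_nonneg_left ?_ hη.le) h5
  nlinarith [sq_nonneg (‖P (Hm 1 h ω) a η (fc h ω)‖ - ‖P (Hm 1 h ω) a η (dl 0)‖)]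

theorem ae_fc (hh : 0 < h) (hQ : QStmt h) : ∀ᵐ ω ∂siteMeasure (Fin 2 → ℤ), fc h ω = 0 := by
  have key : ∀ ε : ℝ≥0∞, ε ≠ 0 → ∃ Z : ((Fin 2 → ℤ) → unitInterval) → ℝ≥0∞, Measurable Z ∧
      ∫⁻ ω, Z ω ∂siteMeasure _ ≤ ENNReal.ofReal (Real.pi / (2 * h)) * ε ∧
      ∀ᵐ ω ∂siteMeasure _, ENNReal.ofReal (1 / 4 * ‖fc h ω‖ ^ 2) ≤ Z ω := fun ε hε => by
    let ι := {p : ℝ × ℝ // p.1 < p.2 ∧ QInt h p.1 p.2}
    have hU : IsOpen (⋃ p : ι, Set.Ioo p.1.1 p.1.2) := isOpen_iUnion fun _ => isOpen_Ioo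
    obtain ⟨K, hK, hK', hK''⟩ := (measurableSet_Icc (a := -(4 + h)) (b := 4 + h)).inter
      hU.measurableSet |>.exists_isCompact_sdiff_lt (μ := volume)
      (ne_top_of_le_ne_top measure_Icc_lt_top.ne (measure_mono Set.inter_subset_left)) hε
    obtain ⟨s, hs⟩ := hK'.elim_finite_subcover _ (fun p : ι => isOpen_Ioo)
      (hK.trans Set.inter_subset_right)
    set A := Set.Icc (-(4 + h)) (4 + h) \ ⋃ p : s, Set.Ioc p.1.1.1 p.1.1.2
    have hA : volume A ≤ ε := le_trans (measure_mono_ae (hQ.mono fun E hE h1 => by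
      obtain ⟨α, β, h2, h3, h4⟩ := hE (abs_le.2 h1.1)
      refine ⟨⟨h1.1, Set.mem_iUnion.2 ⟨⟨(α, β), h2.trans h3, h4⟩, h2, h3⟩⟩, fun h5 => h1.2 ?_⟩
      obtain ⟨p, hp, h6⟩ := Set.mem_iUnion₂.1 (hs h5)
      exact Set.mem_iUnion.2 ⟨⟨p, hp⟩, h6.1, h6.2.le⟩)) hK''.le
    have hm : ∀ k : ℕ, Measurable fun p : ((Fin 2 → ℤ) → unitInterval) × ℝ =>
        ENNReal.ofReal (g 1 h p.2 (2⁻¹ ^ k) p.1 0 0).im := fun k =>
      (continuous_im.comp (cont_g (by positivity) 0 0)).measurable.ennreal_ofReal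
    have hm' := fun k => (hm k).lintegral_prod_right' (ν := volume.restrict A)
    refine ⟨_, Measurable.liminf hm', (lintegral_liminf_le hm').trans
      (liminf_le_of_frequently_le' (Frequently.of_forall fun k => ?_)), ?_⟩
    · rw [lintegral_lintegral_swap (hm k).aemeasurable]
      refine (lintegral_mono fun a => wegner hh (by positivity) 0).trans ?_
      rw [setLIntegral_const]
      exact mul_le_mul_right hA _
    · filter_upwards [ae_all_iff.2 fun p : s => ae_tight hh p.1.2.1 p.1.2.2] with ω hω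
      exact fc_le hh (fun p : s => p.1.2.1.le) hω
  choose Z h1 h2 h3 using fun m : ℕ => key (m : ℝ≥0∞)⁻¹ (by simp)
  have h4 : ∫⁻ ω, ⨅ m, Z m ω ∂siteMeasure _ = 0 := by
    have := ENNReal.Tendsto.const_mul (a := ENNReal.ofReal (Real.pi / (2 * h)))
      ENNReal.tendsto_inv_nat_nhds_zero (Or.inr ENNReal.ofReal_ne_top)
    rw [mul_zero] at this
    exact le_antisymm (ge_of_tendsto' this fun m =>
      (lintegral_mono fun ω => iInf_le _ m).trans (h2 m)) zero_le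
  filter_upwards [(lintegral_eq_zero_iff (Measurable.iInf h1)).1 h4, ae_all_iff.2 h3] with ω h5 h6
  have := (le_iInf h6).trans_eq h5
  rw [Pi.zero_apply, nonpos_iff_eq_zero, ENNReal.ofReal_eq_zero] at this
  exact norm_eq_zero.1 (pow_eq_zero_iff two_ne_zero |>.1 (by linarith [sq_nonneg ‖fc h ω‖]))

/-- **End game of S0519.** -/
theorem s0519_of_Q (hh : 0 < h) (hQ : QStmt h) :
    ∀ᵐ ω ∂(siteMeasure (Fin 2 → ℤ)),
      (∃ (ι : Type) (b : HilbertBasis ι ℂ (lp (fun _ : Fin 2 → ℤ => ℂ) 2)),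
        ∀ i, ∃ E : ℝ,
          applyOp 2 1 (fun x => h * centredPotential ω x) (b i) = (E : ℂ) • ⇑(b i)) ∧
      closure {E : ℝ | ∃ u : lp (fun _ : Fin 2 → ℤ => ℂ) 2, u ≠ 0 ∧
          applyOp 2 1 (fun x => h * centredPotential ω x) u = (E : ℂ) • ⇑u} =
        Set.Icc (-4 - h) (4 + h) := by
  refine s0519_of_basis hh ?_
  have h1 : ∀ x, ∀ᵐ ω ∂siteMeasure (Fin 2 → ℤ), fc h (fun y => ω (y + x)) = 0 := fun x => by
    have h1 : (siteMeasure (Fin 2 → ℤ)).map (fun ω y => ω (y + x)) = siteMeasure (Fin 2 → ℤ) :=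
      Measure.map_infinitePi_infinitePi_of_inj (P := fun _ => (volume : Measure unitInterval))
        (add_left_injective x)
    have h2 := ae_fc hh hQ
    rw [← h1] at h2
    exact ae_of_ae_map (Measurable.aemeasurable (by fun_prop)) h2
  filter_upwards [ae_all_iff.2 h1] with ω hω
  refine exists_eigenbasis (X := Hm 1 h ω) Hm_sa.isSymmetric ((Submodule.eq_bot_iff _).2 fun u hu =>
    lp.ext (funext fun x => ?_))
  have h2 := Submodule.starProjection_inner_eq_zero (dl 0) (translate 2 x u)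
    (mem_cont (H := Hm 1 h fun y => ω (y + x)).2 fun μ e he => by
      rw [← neg_neg x, ← inner_translate]
      refine mem_cont.1 hu μ _ ?_
      rw [← map_smul, ← he]
      ext y
      simp only [translate_apply, latticeOp_apply, applyOp, pot_apply, centredPotential,
        neg_add_cancel_right, sub_eq_add_neg]
      simp only [add_right_comm y (-x)])
  rw [← fc, hω x, sub_zero, inner_dl, translate_apply, zero_add] at h2
  exact h2

end Crest.Agent.N334.End
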