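import Mathlib

/-!
# Row 334 (helper52): resolvent, Poisson operator and quadratic forms of a self-adjoint operator
-/

set_option autoImplicit false

open Filter Topology Complex
open scoped InnerProductSpace ComplexConjugate

namespace Crest.Agent.N334.End

/-- Poisson kernel -/
noncomputable def pk (η t : ℝ) : ℝ := η / (t ^ 2 + η ^ 2)

lemma pk_nonneg {η : ℝ} (hη : 0 ≤ η) (t : ℝ) : 0 ≤ pk η t := by unfold pk; positivity

lemma continuous_pk {η : ℝ} (hη : 0 < η) : Continuous (pk η) :=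
  continuous_const.div (by fun_prop) fun t => by positivity

lemma cont_pk {η : ℝ} (hη : 0 < η) (a : ℝ) : Continuous fun l => pk η (l - a) :=
  (continuous_pk hη).comp (by fun_prop)

lemma cont_pk' {η : ℝ} (hη : 0 < η) (l : ℝ) : Continuous fun a => pk η (l - a) :=
  (continuous_pk hη).comp (by fun_prop)

lemma cont_pk2 {η : ℝ} (hη : 0 < η) : Continuous (Function.uncurry fun a l => pk η (l - a)) :=
  (continuous_pk hη).comp (continuous_snd.sub continuous_fst)

lemma mul_pk_le {η : ℝ} (hη : 0 < η) (t : ℝ) : η * pk η t ≤ 1 := by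
  rw [pk, ← mul_div_assoc, div_le_one (by positivity)]; nlinarith [sq_nonneg t]

lemma int_pk_le {η : ℝ} (hη : 0 < η) (l α β : ℝ) : ∫ a in α..β, pk η (l - a) ≤ Real.pi := by
  rw [intervalIntegral.integral_eq_sub_of_hasDerivAt (f := fun a => -Real.arctan ((l - a) / η))
    (fun a _ => ?_) ((cont_pk' hη l).intervalIntegrable _ _)]
  · linarith [Real.arctan_lt_pi_div_two ((l - α) / η), Real.neg_pi_div_two_lt_arctan ((l - β) / η)]
  · refine ((((hasDerivAt_id' a).const_sub l).div_const η).arctan).neg.congr_deriv ?_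
    simp only [pk]; field_simp; ring

lemma pk_far {η ω l a α : ℝ} (hη : 0 < η) (h1 : η ≤ ω) (ha : |a - α| ≤ ω) (hl : 2 * ω ≤ |l - α|) :
    pk η (l - a) ≤ 5 * pk ω (l - α) := by
  have h2 : |l - α| / 2 ≤ |l - a| := by
    have := abs_sub_le l a α
    linarith
  have h3 := pow_le_pow_left₀ (by positivity) h2 2
  have h4 := pow_le_pow_left₀ (by linarith) hl 2
  rw [div_pow, sq_abs, sq_abs] at h3
  rw [sq_abs] at h4
  have hω : 0 < ω := hη.trans_le h1
  rw [pk, pk, ← mul_div_assoc, div_le_div_iff₀ (by positivity) (by positivity)]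
  have : (l - α) ^ 2 + ω ^ 2 ≤ 5 * ((l - a) ^ 2 + η ^ 2) := by nlinarith
  nlinarith [mul_le_mul h1 this (by positivity) hω.le]

lemma pk_near {ω l α : ℝ} (hω : 0 < ω) (hl : |l - α| ≤ 2 * ω) : 1 ≤ 5 * (ω * pk ω (l - α)) := by
  have h4 := pow_le_pow_left₀ (abs_nonneg _) hl 2
  rw [sq_abs] at h4
  rw [pk, ← mul_div_assoc, ← mul_div_assoc, one_le_div (by positivity)]
  nlinarith

lemma mul_pk_le_win {η ω a α : ℝ} (hη : 0 < η) (h1 : η ≤ ω) (ha : |a - α| ≤ ω) (l : ℝ) :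
    η * pk η (l - a) ≤ 5 * ω * pk ω (l - α) := by
  rcases le_total (|l - α|) (2 * ω) with h | h
  · linarith [mul_pk_le hη (l - a), pk_near (hη.trans_le h1) h]
  · nlinarith [mul_le_mul h1 (pk_far hη h1 ha h) (pk_nonneg hη.le _) (hη.le.trans h1)]

lemma int_pk_le_win {η ω : ℝ} (hη : 0 < η) (h1 : η ≤ ω) (α l : ℝ) :
    ∫ a in α..α + ω, pk η (l - a) ≤ 20 * ω * pk ω (l - α) := by
  have hω : 0 < ω := hη.trans_le h1
  rcases le_total (|l - α|) (2 * ω) with h | h
  · linarith [int_pk_le hη l α (α + ω), pk_near hω h, Real.pi_le_four]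
  · have := intervalIntegral.integral_mono_on (μ := MeasureTheory.volume) (by linarith : α ≤ α + ω)
      ((cont_pk' hη l).intervalIntegrable _ _)
      (intervalIntegrable_const (c := 5 * pk ω (l - α))) fun a ha =>
        pk_far hη h1 (abs_le.2 ⟨by linarith [ha.1], by linarith [ha.2]⟩) h
    simp only [intervalIntegral.integral_const, smul_eq_mul] at this
    nlinarith [mul_nonneg hω.le (pk_nonneg hω.le (l - α))]

lemma kap_eq {η : ℝ} (hη : 0 < η) (l α β : ℝ) : ∫ a in α..β, η * pk η (l - a) ^ 2 =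
    ∫ s in (l - β) / η..(l - α) / η, ((1 + s ^ 2) ^ 2)⁻¹ := by
  have h := intervalIntegral.integral_comp_div (a := l - β) (b := l - α)
    (fun s => ((1 + s ^ 2) ^ 2)⁻¹) hη.ne'
  rw [intervalIntegral.integral_comp_sub_left (fun t => η * pk η t ^ 2),
    ← inv_mul_cancel_left₀ hη.ne' (∫ s in (l - β) / η..(l - α) / η, _), ← smul_eq_mul η, ← h,
    ← intervalIntegral.integral_const_mul]
  refine intervalIntegral.integral_congr fun t _ => ?_
  simp only [pk]; field_simp; ring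

lemma cont_k : Continuous fun s : ℝ => ((1 + s ^ 2) ^ 2)⁻¹ :=
  Continuous.inv₀ (by fun_prop) fun s => by positivity

lemma kap_diff {η : ℝ} (hη : 0 < η) (l α β : ℝ) :
    ∫ a in α..β, η / 2 * pk (η / 2) (l - a) ^ 2 ≤
      (∫ a in α..β, η * pk η (l - a) ^ 2) + (η * pk η (l - α) + η * pk η (l - β)) := by
  have h1 : ∀ t, ‖∫ s in t / η..t / (η / 2), ((1 + s ^ 2) ^ 2)⁻¹‖ ≤ η * pk η t := fun t => by
    have e : t / (η / 2) = 2 * (t / η) := by field_simp
    have e2 : η * pk η t = (1 + (t / η) ^ 2)⁻¹ := by simp only [pk]; field_simp; ring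
    rw [e, e2]
    generalize t / η = s
    refine (intervalIntegral.norm_integral_le_of_norm_le_const (C := ((1 + s ^ 2) ^ 2)⁻¹)
      fun x hx => ?_).trans ?_
    · rw [Real.norm_of_nonneg (by positivity)]
      have : s ^ 2 ≤ x ^ 2 := by
        rcases Set.mem_uIoc.1 hx with h | h <;> nlinarith [h.1, h.2]
      gcongr
    · rw [show 2 * s - s = s by ring, sq (1 + _), mul_inv, mul_assoc]
      refine mul_le_of_le_one_right (by positivity) ?_
      rw [inv_mul_le_iff₀ (by positivity)]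
      nlinarith [sq_abs s, sq_nonneg (|s| - 1)]
  rw [kap_eq hη, kap_eq (half_pos hη),
    ← intervalIntegral.integral_add_adjacent_intervals (b := (l - β) / η)
      (cont_k.intervalIntegrable _ _) (cont_k.intervalIntegrable _ _),
    ← intervalIntegral.integral_add_adjacent_intervals (a := (l - β) / η) (b := (l - α) / η)
      (cont_k.intervalIntegrable _ _) (cont_k.intervalIntegrable _ _),
    intervalIntegral.integral_symm ((l - β) / η)]
  linarith [abs_le.1 (h1 (l - α)), abs_le.1 (h1 (l - β))]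

lemma kap_ge {η M l : ℝ} (hη : 0 < η) (h1 : η ≤ M) (hl : |l| ≤ M) :
    1 / 4 ≤ ∫ a in -M..M, η * pk η (l - a) ^ 2 := by
  have h2 : ∀ c, -1 ≤ c → c ≤ 0 → (l - M) / η ≤ c → c + 1 ≤ (l - -M) / η →
      1 / 4 ≤ ∫ s in (l - M) / η..(l - -M) / η, ((1 + s ^ 2) ^ 2)⁻¹ := fun c c1 c2 c3 c4 => by
    refine le_trans ?_ (intervalIntegral.integral_mono_interval c3 (by linarith) c4
      (Eventually.of_forall fun s => by positivity) (cont_k.intervalIntegrable _ _))
    refine le_trans (by simp) (intervalIntegral.integral_mono_on (by linarith)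
      (intervalIntegrable_const (c := 1 / 4)) (cont_k.intervalIntegrable _ _) fun s hs => ?_)
    have : s ^ 2 ≤ 1 := by nlinarith [hs.1, hs.2]
    rw [one_div]; gcongr; nlinarith [sq_nonneg s]
  have := abs_le.1 hl
  rw [kap_eq hη]
  rcases le_total 0 l with h | h
  · exact h2 0 (by norm_num) le_rfl (div_nonpos_of_nonpos_of_nonneg (by linarith) hη.le)
      (by rw [le_div_iff₀ hη]; linarith)
  · exact h2 (-1) le_rfl (by norm_num) (by rw [div_le_iff₀ hη]; linarith)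
      (by rw [le_div_iff₀ hη]; linarith)

variable {E : Type} [NormedAddCommGroup E] [InnerProductSpace ℂ E] [CompleteSpace E]
  {H : E →L[ℂ] E} {z : ℂ}

/-- the resolvent `(H - z)⁻¹` -/
noncomputable def G (H : E →L[ℂ] E) (z : ℂ) : E →L[ℂ] E := Ring.inverse (H - z • 1)

lemma isUnit_sub (hH : IsSelfAdjoint H) (hz : z.im ≠ 0) : IsUnit (H - z • 1) := by
  have : z ∉ spectrum ℂ H := fun h => hz (by rw [hH.mem_spectrum_eq_re h]; simp)
  rw [spectrum.notMem_iff, Algebra.algebraMap_eq_smul_one, ← IsUnit.neg_iff, neg_sub] at this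
  exact this

lemma HG (hH : IsSelfAdjoint H) (hz : z.im ≠ 0) (u : E) : H (G H z u) - z • G H z u = u :=
  DFunLike.congr_fun (Ring.mul_inverse_cancel _ (isUnit_sub hH hz)) u

lemma G_eq (hH : IsSelfAdjoint H) (hz : z.im ≠ 0) {u w : E} (h : H w - z • w = u) : G H z u = w :=
  h ▸ DFunLike.congr_fun (Ring.inverse_mul_cancel _ (isUnit_sub hH hz)) w

lemma norm_G_le (hH : IsSelfAdjoint H) (hz : z.im ≠ 0) (u : E) : |z.im| * ‖G H z u‖ ≤ ‖u‖ := by
  have h1 := HG hH hz u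
  generalize G H z u = w at h1
  have h2 : (⟪w, H w⟫_ℂ).im = 0 := hH.isSymmetric.im_inner_self_apply w
  have h3 : (⟪w, u⟫_ℂ).im = -z.im * ‖w‖ ^ 2 := by
    rw [← h1, inner_sub_right, inner_smul_right, inner_self_eq_norm_sq_to_K]
    simp [h2, ← ofReal_pow]
  have h4 := (abs_im_le_norm _).trans (norm_inner_le_norm (𝕜 := ℂ) w u)
  rw [h3, abs_mul, abs_neg, abs_of_nonneg (sq_nonneg ‖w‖)] at h4
  rcases (norm_nonneg w).eq_or_lt with h | h
  · rw [← h, mul_zero]; exact norm_nonneg _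
  · nlinarith

lemma inner_G (hH : IsSelfAdjoint H) (hz : z.im ≠ 0) (u w : E) :
    ⟪G H z u, w⟫_ℂ = ⟪u, G H (conj z) w⟫_ℂ := by
  have hs : ∀ a b, ⟪H a, b⟫_ℂ = ⟪a, H b⟫_ℂ := hH.isSymmetric
  conv_lhs => rw [← HG hH (z := conj z) (by simpa) w]
  conv_rhs => rw [← HG hH hz u]
  rw [inner_sub_left, inner_sub_right, inner_smul_left, inner_smul_right, hs]

lemma continuous_G {Ω : Type} [TopologicalSpace Ω] {H : Ω → E →L[ℂ] E} {z : Ω → ℂ} {η : ℝ}
    (hH : ∀ ω, IsSelfAdjoint (H ω)) (hc : ∀ w, Continuous fun ω => H ω w) (hz : Continuous z)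
    (hη : η ≠ 0) (hi : ∀ ω, (z ω).im = η) (u : E) : Continuous fun ω => G (H ω) (z ω) u := by
  refine continuous_iff_continuousAt.2 fun ω => tendsto_iff_norm_sub_tendsto_zero.2 ?_
  set w := G (H ω) (z ω) u
  have h1 : Continuous fun ω => |η|⁻¹ * ‖u - (H ω w - z ω • w)‖ := by fun_prop
  have h2 := h1.tendsto ω
  simp only [w, HG (hH ω) (hi ω ▸ hη), sub_self, norm_zero, mul_zero] at h2
  refine squeeze_zero (fun _ => norm_nonneg _) (fun ω' => ?_) h2
  rw [le_inv_mul_iff₀ (abs_pos.2 hη), ← hi ω']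
  have := norm_G_le (z := z ω') (hH ω') (hi ω' ▸ hη) (u - (H ω' w - z ω' • w))
  rwa [map_sub, G_eq (hH ω') (hi ω' ▸ hη) (w := w) rfl] at this

/-- `⟨ψ, f(H) ψ⟩` -/
noncomputable def qf (H : E →L[ℂ] E) (ψ : E) (f : ℝ → ℝ) : ℝ := (⟪ψ, cfc f H ψ⟫_ℂ).re

lemma qf_mono (ψ : E) {f g : ℝ → ℝ} (hf : Continuous f) (hg : Continuous g)
    (h : ∀ l, |l| ≤ ‖H‖ → f l ≤ g l) : qf H ψ f ≤ qf H ψ g := by
  have h1 : cfc f H ≤ cfc g H := cfc_mono fun l hl => h l ((spectrum.norm_le_norm_mul_of_mem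
    hl).trans (mul_le_of_le_one_right (norm_nonneg _) ContinuousLinearMap.norm_id_le))
  have h2 := ((ContinuousLinearMap.le_def _ _).1 h1).re_inner_nonneg_right ψ
  rw [_root_.sub_apply, inner_sub_right, map_sub] at h2
  exact sub_nonneg.1 h2

lemma qf_add (ψ : E) {f g : ℝ → ℝ} (hf : Continuous f) (hg : Continuous g) :
    qf H ψ (fun l => f l + g l) = qf H ψ f + qf H ψ g := by
  rw [qf, cfc_add H f g, _root_.add_apply, inner_add_right, add_re]; rfl

lemma qf_mul (ψ : E) (c : ℝ) {f : ℝ → ℝ} (hf : Continuous f) :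
    qf H ψ (fun l => c * f l) = c * qf H ψ f := by
  rw [qf, cfc_const_mul c f H, _root_.smul_apply, ← coe_smul, inner_smul_right, re_ofReal_mul]; rfl

lemma qf_const (hH : IsSelfAdjoint H) (ψ : E) (c : ℝ) : qf H ψ (fun _ => c) = c * ‖ψ‖ ^ 2 := by
  have := qf_mul (H := H) ψ c (continuous_const (y := 1))
  rw [qf, qf, cfc_const_one ℝ H] at this
  simp only [mul_one] at this
  rw [qf, this]; congr 1
  exact inner_self_eq_norm_sq (𝕜 := ℂ) ψ

lemma qf_int (hH : IsSelfAdjoint H) (ψ : E) {k : ℝ → ℝ → ℝ} (hk : Continuous k.uncurry) (α β : ℝ) :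
    ∫ a in α..β, qf H ψ (k a) = qf H ψ fun l => ∫ a in α..β, k a l := by
  let K : C(ℝ, C(spectrum ℝ H, ℝ)) := ContinuousMap.curry ⟨fun p => k p.1 p.2, by fun_prop⟩
  let Λ : C(spectrum ℝ H, ℝ) →L[ℝ] ℝ := reCLM ∘L ((innerSL ℂ ψ ∘L
    ContinuousLinearMap.apply ℂ E ψ).restrictScalars ℝ) ∘L cfcL hH
  have h1 : ∀ a, qf H ψ (k a) = Λ (K a) := fun a => by
    rw [qf, cfc_apply (k a) H hH (hk.uncurry_left a).continuousOn]; rfl
  simp only [h1]
  rw [Λ.intervalIntegral_comp_comm (K.continuous.intervalIntegrable _ _), qf, cfc_apply _ H hH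
    (intervalIntegral.continuous_parametric_intervalIntegral_of_continuous'
      (f := fun l a => k a l) (by fun_prop) α β).continuousOn]
  change Λ _ = Λ _
  congr 1; ext l
  exact ((ContinuousMap.evalCLM ℝ l).intervalIntegral_comp_comm (μ := MeasureTheory.volume)
    (K.continuous.intervalIntegrable α β)).symm

/-- `Im (H - a - iη)⁻¹` -/
noncomputable def P (H : E →L[ℂ] E) (a η : ℝ) : E →L[ℂ] E := cfc (fun l : ℝ => pk η (l - a)) H

variable {a η : ℝ}

lemma P_eq (hH : IsSelfAdjoint H) (hη : 0 < η) (u : E) :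
    P H a η u = (η : ℂ) • G H (conj ⟨a, η⟩) (G H ⟨a, η⟩ u) := by
  have hc := cont_pk hη a
  have h1 : ((H - a • 1) ^ 2 + η ^ 2 • 1) * P H a η = η • (1 : E →L[ℂ] E) := by
    have h2 : cfc (fun l : ℝ => (l - a) ^ 2 + η ^ 2) H = (H - a • 1) ^ 2 + η ^ 2 • 1 := by
      rw [cfc_add H _ _, cfc_pow _ _ H, cfc_sub _ _ H, cfc_id' ℝ H, cfc_const _ H, cfc_const _ H,
        Algebra.algebraMap_eq_smul_one, Algebra.algebraMap_eq_smul_one]
    rw [← h2, P, ← cfc_mul _ _ H (hg := hc.continuousOn), ← Algebra.algebraMap_eq_smul_one,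
      ← cfc_const η H]
    exact cfc_congr fun l _ => by simp only [pk]; field_simp
  rw [← map_smul, ← map_smul]
  refine (G_eq hH (by simpa using hη.ne') (G_eq hH hη.ne' ?_).symm).symm
  have h2 := DFunLike.congr_fun h1 u
  simp only [sq, mul_apply_eq_comp, _root_.add_apply, _root_.sub_apply,
    _root_.smul_apply, one_apply_eq_self, map_sub, ← coe_smul, map_smul] at h2 ⊢
  rw [← h2, show conj (⟨a, η⟩ : ℂ) = a - η * I from Complex.ext (by simp) (by simp),
    show (⟨a, η⟩ : ℂ) = a + η * I from Complex.ext (by simp) (by simp)]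
  match_scalars <;> ring_nf
  simp

lemma inner_P (hH : IsSelfAdjoint H) (hη : 0 < η) (u w : E) :
    ⟪u, P H a η w⟫_ℂ = η * ⟪G H ⟨a, η⟩ u, G H ⟨a, η⟩ w⟫_ℂ := by
  rw [P_eq hH hη, inner_smul_right, inner_G hH hη.ne']

lemma qf_pk (hH : IsSelfAdjoint H) (hη : 0 < η) (u : E) :
    qf H u (fun l => pk η (l - a)) = η * ‖G H ⟨a, η⟩ u‖ ^ 2 := by
  rw [qf, ← P, inner_P hH hη, re_ofReal_mul]; congr 1
  exact inner_self_eq_norm_sq (𝕜 := ℂ) _

lemma norm_inner_P_sq (hH : IsSelfAdjoint H) (hη : 0 < η) (u w : E) : ‖⟪u, P H a η w⟫_ℂ‖ ^ 2 ≤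
    qf H u (fun l => pk η (l - a)) * qf H w fun l => pk η (l - a) := by
  rw [inner_P hH hη, qf_pk hH hη, qf_pk hH hη, norm_mul, norm_real, Real.norm_of_nonneg hη.le]
  refine (pow_le_pow_left₀ (by positivity) (mul_le_mul_of_nonneg_left (norm_inner_le_norm _ _)
    hη.le) 2).trans_eq (by ring)

lemma norm_P_sq (hH : IsSelfAdjoint H) (hη : 0 < η) (u : E) :
    η * ‖P H a η u‖ ^ 2 = qf H u fun l => η * pk η (l - a) ^ 2 := by
  have hc := cont_pk hη a
  have hs : IsSelfAdjoint (P H a η) := cfc_predicate _ _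
  rw [qf_mul u η (f := fun l => pk η (l - a) ^ 2) (hc.pow 2), qf, cfc_pow _ _ H hc.continuousOn, sq (cfc _ H),
    mul_apply_eq_comp]
  congr 1
  exact (inner_self_eq_norm_sq (𝕜 := ℂ) _).symm.trans (congrArg re (hs.isSymmetric u _))

lemma P_eq_sub (hH : IsSelfAdjoint H) (hη : 0 < η) (u : E) :
    (2 * I) • P H a η u = G H ⟨a, η⟩ u - G H (conj ⟨a, η⟩) u := by
  rw [P_eq hH hη, smul_smul, ← map_smul, eq_sub_iff_add_eq, ← map_add]
  refine G_eq hH (by simpa using hη.ne') ?_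
  conv_rhs => rhs; rw [← HG hH (z := ⟨a, η⟩) hη.ne' u]
  rw [show conj (⟨a, η⟩ : ℂ) = ⟨a, η⟩ - 2 * I * η from Complex.ext (by simp) (by simp; ring)]
  module

end Crest.Agent.N334.End
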