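import Crest.Agent.N334.End.Min

/-!
# Row 334 (helper52): the total-variation step of note 245
-/

set_option autoImplicit false

open Filter Topology Complex MeasureTheory Function Finset
open scoped InnerProductSpace ComplexConjugate ENNReal

namespace Crest.Agent.N334.End

open Crest.MathPhysics.Anderson Crest.Agent.N334.Soft

lemma int_sq_le {ι : Type} {S B : Finset ι} (hS : S ⊆ B) {u v : ι → ℝ → ℝ} {η θ α β : ℝ}
    (hu : ∀ x, Continuous (u x)) (hv : ∀ x, Continuous (v x)) (hη : 0 ≤ η) (hθ : 0 < θ)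
    (h : α ≤ β) : ∫ a in α..β, η * ∑ x ∈ S, u x a ^ 2 ≤
      (1 + θ) * (∫ a in α..β, η * ∑ x ∈ S, v x a ^ 2) +
        (1 + θ⁻¹) * ∫ a in α..β, η * ∑ x ∈ B, (u x a - v x a) ^ 2 := by
  rw [← intervalIntegral.integral_const_mul, ← intervalIntegral.integral_const_mul,
    ← intervalIntegral.integral_add (Continuous.intervalIntegrable (by fun_prop) _ _)
      (Continuous.intervalIntegrable (by fun_prop) _ _)]
  refine intervalIntegral.integral_mono_on h (Continuous.intervalIntegrable (by fun_prop) _ _)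
    (Continuous.intervalIntegrable (by fun_prop) _ _) fun a _ => ?_
  rw [mul_left_comm _ η, mul_left_comm _ η, ← mul_add]
  refine mul_le_mul_of_nonneg_left (le_trans ?_ (add_le_add_right (mul_le_mul_of_nonneg_left
    (sum_le_sum_of_subset_of_nonneg hS fun _ _ _ => sq_nonneg _) (by positivity)) _)) hη
  rw [mul_sum, mul_sum, ← sum_add_distrib]
  refine sum_le_sum fun x _ => ?_
  have : 0 ≤ θ⁻¹ * (θ * v x a - (u x a - v x a)) ^ 2 := by positivity
  have h2 : θ⁻¹ * (θ * v x a - (u x a - v x a)) ^ 2 =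
    θ * v x a ^ 2 - 2 * v x a * (u x a - v x a) + θ⁻¹ * (u x a - v x a) ^ 2 := by field_simp; ring
  nlinarith

lemma arith {A A' aS aB tS tS' tB tB' m m' e e' D θ : ℝ} (hθ : 0 ≤ θ) (hθ1 : θ ≤ 1) (hA' : 0 ≤ A')
    (ha0 : 0 ≤ aS) (ha : aS ≤ aB) (he : 0 ≤ e) (he' : 0 ≤ e') (hD : 0 ≤ D) (h0 : 0 ≤ tB) (h0' : 0 ≤ tB')
    (h1 : tS' ≤ (1 + θ) * (aS * A') + e') (h2 : aS * A ≤ (1 + θ) * tS + e)
    (h3 : aB * A' ≤ (1 + θ) * tB' + e') (h4 : tB ≤ (1 + θ) * (aB * A) + e)
    (h5 : aB * A ≤ (1 + θ) * tB + e) (h6 : tS ≤ m) (h7 : tB ≤ m) (h8 : tB' ≤ m') (h9 : m' ≤ m + D) :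
    tS' ≤ tS + D + (m - tB) + 3 * θ * (m + m') + 3 * (e + e') := by
  have k1 : θ * (aS * A') ≤ 2 * θ * m' + e' := by
    have : aS * A' ≤ 2 * m' + e' := by nlinarith [mul_le_mul_of_nonneg_right ha hA']
    nlinarith [mul_le_mul_of_nonneg_left this hθ]
  have k2 : θ * (aB * A) ≤ 2 * θ * m + e := by
    have : aB * A ≤ 2 * m + e := by nlinarith
    nlinarith [mul_le_mul_of_nonneg_left this hθ]
  have k3 := mul_le_mul_of_nonneg_left h6 hθ
  have k4 := mul_le_mul_of_nonneg_left h8 hθ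
  have k5 := mul_nonneg hθ (h0.trans h7)
  have k6 := mul_nonneg hθ (h0'.trans h8)
  rcases le_total A' A with h | h
  · nlinarith [mul_le_mul_of_nonneg_left h ha0]
  · nlinarith [mul_nonneg (sub_nonneg.2 ha) (sub_nonneg.2 h)]

variable {d : ℕ} {τ h η : ℝ} {ω : (Fin d → ℤ) → unitInterval}

lemma out_sq (B : Finset (Fin d → ℤ)) (u : Ell2 d) :
    out B u ^ 2 = ‖u‖ ^ 2 - ∑ x ∈ B, ‖u x‖ ^ 2 := by
  simpa [out, fs] using lp.norm_compl_sum_single (p := 2) (by norm_num) u B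

/-- mass of `η (Im G)²` on `S` -/
noncomputable def tt (τ h η α β : ℝ) (S : Finset (Fin d → ℤ)) (ω : (Fin d → ℤ) → unitInterval) : ℝ :=
  ∫ a in α..β, η * ∑ x ∈ S, (g τ h a η ω x 0).im ^ 2

/-- total mass -/
noncomputable def mm (τ h η α β : ℝ) (ω : (Fin d → ℤ) → unitInterval) : ℝ :=
  ∫ a in α..β, η * ‖P (Hm τ h ω) a η (dl 0)‖ ^ 2

/-- mass outside `B` -/
noncomputable def T (τ h η α β : ℝ) (B : Finset (Fin d → ℤ)) (ω : (Fin d → ℤ) → unitInterval) : ℝ :=
  ∫ a in α..β, η * out B (P (Hm τ h ω) a η (dl 0)) ^ 2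

lemma cont_ga (hη : 0 < η) (y x : Fin d → ℤ) : Continuous fun a => g τ h a η ω y x :=
  Continuous.uncurry_left (f := fun ω a => g τ h a η ω y x) ω (cont_g hη y x)

lemma cont_Pa (hη : 0 < η) (u : Ell2 d) : Continuous fun a => P (Hm τ h ω) a η u :=
  Continuous.uncurry_left (f := fun ω a => P (Hm τ h ω) a η u) ω (cont_P hη u)

lemma cont_tt (hη : 0 < η) (S : Finset (Fin d → ℤ)) :
    Continuous fun a => η * ∑ x ∈ S, (g τ h a η ω x 0).im ^ 2 := by
  have := fun x => cont_ga (τ := τ) (h := h) (ω := ω) hη x 0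
  fun_prop

lemma T_eq (hη : 0 < η) (α β : ℝ) (B : Finset (Fin d → ℤ)) :
    T τ h η α β B ω = mm τ h η α β ω - tt τ h η α β B ω := by
  have := cont_Pa (τ := τ) (h := h) (ω := ω) hη (dl 0)
  rw [mm, tt, ← intervalIntegral.integral_sub (Continuous.intervalIntegrable (by fun_prop) _ _)
    ((cont_tt hη B).intervalIntegrable _ _)]
  simp only [T, out_sq, P_apply hη, norm_real, Real.norm_eq_abs, sq_abs, mul_sub]

lemma T_nonneg (hη : 0 < η) {α β : ℝ} (hαβ : α ≤ β) (B : Finset (Fin d → ℤ)) :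
    0 ≤ T τ h η α β B ω := intervalIntegral.integral_nonneg hαβ fun a _ => by positivity

lemma tt_nonneg (hη : 0 < η) {α β : ℝ} (hαβ : α ≤ β) (B : Finset (Fin d → ℤ)) :
    0 ≤ tt τ h η α β B ω := intervalIntegral.integral_nonneg hαβ fun a _ => by positivity

lemma tt_le (hη : 0 < η) {α β : ℝ} (hαβ : α ≤ β) (B : Finset (Fin d → ℤ)) :
    tt τ h η α β B ω ≤ mm τ h η α β ω := sub_nonneg.1 (T_eq hη α β B ▸ T_nonneg hη hαβ B)

lemma tt_sdiff (hη : 0 < η) (α β : ℝ) {S B : Finset (Fin d → ℤ)} (hS : S ⊆ B) :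
    tt τ h η α β (B \ S) ω + tt τ h η α β S ω = tt τ h η α β B ω := by
  rw [tt, tt, ← intervalIntegral.integral_add ((cont_tt hη _).intervalIntegrable _ _)
    ((cont_tt hη _).intervalIntegrable _ _)]
  simp only [← mul_add, sum_sdiff hS, tt]

lemma cont_T (hη : 0 < η) (α β : ℝ) (B : Finset (Fin d → ℤ)) : Continuous (T τ h η α β B) := by
  refine intervalIntegral.continuous_parametric_intervalIntegral_of_continuous' ?_ α β
  have h1 := cont_P (τ := τ) (h := h) hη (dl (0 : Fin d → ℤ))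
  have h2 := fun x => cont_g (τ := τ) (h := h) hη x (0 : Fin d → ℤ)
  simp only [uncurry_def, out_sq, P_apply hη]
  fun_prop

lemma mm_eq (hη : 0 < η) (α β : ℝ) : mm τ h η α β ω =
    qf (Hm τ h ω) (dl 0) fun l => ∫ a in α..β, η * pk η (l - a) ^ 2 := by
  rw [← qf_int Hm_sa _ (k := fun a l => η * pk η (l - a) ^ 2)
    (by exact ((cont_pk2 hη).pow 2).const_mul η)]
  simp only [mm, norm_P_sq Hm_sa hη]

lemma cont_kap (hη : 0 < η) (α β : ℝ) : Continuous fun l => ∫ a in α..β, η * pk η (l - a) ^ 2 :=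
  intervalIntegral.continuous_parametric_intervalIntegral_of_continuous'
    ((((continuous_pk hη).comp (continuous_fst.sub continuous_snd)).pow 2).const_mul η) α β

lemma mm_le (hη : 0 < η) {α β : ℝ} (hαβ : α ≤ β) : mm τ h η α β ω ≤ Real.pi := by
  rw [mm_eq hη]
  refine (qf_mono _ (cont_kap hη α β) continuous_const fun l _ => le_trans ?_
    (int_pk_le hη l α β)).trans_eq (by simp [qf_const Hm_sa])
  refine intervalIntegral.integral_mono_on hαβ ((((cont_pk' hη l).pow 2).const_mul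
    η).intervalIntegrable _ _) ((cont_pk' hη l).intervalIntegrable _ _) fun a _ => ?_
  nlinarith [mul_pk_le hη (l - a), pk_nonneg hη.le (l - a)]

lemma mm_half (hη : 0 < η) (α β : ℝ) : mm τ h (η / 2) α β ω ≤
    mm τ h η α β ω + η * ((g τ h α η ω 0 0).im + (g τ h β η ω 0 0).im) := by
  have h1 := fun a => (cont_pk hη a).const_mul η
  rw [mm_eq hη, mm_eq (half_pos hη), mul_add, ← qf_dl hη, ← qf_dl hη, ← qf_mul _ _ (cont_pk hη _),
    ← qf_mul _ _ (cont_pk hη _), ← qf_add _ (h1 α) (h1 β),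
    ← qf_add _ (cont_kap hη α β) ((h1 α).fun_add (h1 β))]
  exact qf_mono _ (cont_kap (half_pos hη) α β) ((cont_kap hη α β).add ((h1 α).add (h1 β)))
    fun l _ => kap_diff hη l α β

lemma err_le (hη : 0 < η) {w : ℝ} (hw : η ≤ w) (α : ℝ) (B : Finset (Fin d → ℤ)) :
    ∫ a in α..α + w, η * ∑ x ∈ B, ((g τ h a η ω x 0).im -
      (g τ h α w ω x 0).im / (g τ h α w ω 0 0).im * (g τ h a η ω 0 0).im) ^ 2 ≤
      100 * w ^ 2 * ∑ x ∈ B, dt τ h α w ω 0 x := by
  have hw0 := hη.trans_le hw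
  have hM := im_g_pos (τ := τ) (h := h) (a := α) (ω := ω) hw0 0
  have hc := fun x => cont_ga (τ := τ) (h := h) (ω := ω) hη x 0
  simp only [mul_sum]
  rw [intervalIntegral.integral_finsetSum fun x _ => Continuous.intervalIntegrable (by fun_prop) _ _]
  refine sum_le_sum fun x _ => ?_
  set c := (g τ h α w ω x 0).im / (g τ h α w ω 0 0).im with hcd
  set u : Ell2 d := dl x - (c : ℂ) • dl 0 with hu
  have h1 : ∀ v : Ell2 d, ⟪u, v⟫_ℂ = v x - c * v 0 := fun v => by
    rw [hu, inner_sub_left, inner_smul_left, inner_dl, inner_dl, conj_ofReal]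
  have h2 : (g τ h α w ω 0 0).im * qf (Hm τ h ω) u (fun l => pk w (l - α)) = dt τ h α w ω 0 x := by
    rw [qf, ← P, h1, hu, map_sub, map_smul]
    simp only [lp.coeFn_sub, lp.coeFn_smul, Pi.sub_apply, Pi.smul_apply, P_apply hw0, smul_eq_mul,
      ← ofReal_mul, ← ofReal_sub, ofReal_re, dt, g_symm hw0 0 x, hcd]
    field_simp; ring
  have h3 := (qf_int (H := Hm τ h ω) Hm_sa u (cont_pk2 hη) α (α + w)).trans_le ((qf_mono u
    (intervalIntegral.continuous_parametric_intervalIntegral_of_continuous'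
      (f := fun l a => pk η (l - a)) ((continuous_pk hη).comp (continuous_fst.sub continuous_snd)) _ _)
    ((cont_pk hw0 α).const_mul _) fun l _ => int_pk_le_win hη hw α l).trans_eq
      (qf_mul u _ (cont_pk hw0 α)))
  have h4 : Continuous fun a => qf (Hm τ h ω) u fun l => pk η (l - a) :=
    continuous_re.comp (continuous_const.inner (cont_Pa hη u))
  refine (intervalIntegral.integral_mono_on (by linarith) (Continuous.intervalIntegrable
    (by fun_prop) _ _) ((h4.const_mul (5 * w * (g τ h α w ω 0 0).im)).intervalIntegrable _ _)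
    fun a ha => ?_).trans ?_
  · have h5 := norm_inner_P_sq (H := Hm τ h ω) (a := a) Hm_sa hη u (dl 0)
    rw [h1, P_apply hη, P_apply hη, ← ofReal_mul, ← ofReal_sub, norm_real, Real.norm_eq_abs,
      sq_abs] at h5
    have h6 := qf_mono (H := Hm τ h ω) (dl 0) ((cont_pk hη a).const_mul η)
      ((cont_pk hw0 α).const_mul (5 * w)) fun l _ =>
        mul_pk_le_win hη hw (abs_le.2 ⟨by linarith [ha.1], by linarith [ha.2]⟩) l
    rw [qf_mul _ _ (cont_pk hη a), qf_mul _ _ (cont_pk hw0 α), qf_dl hw0] at h6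
    have h7 : 0 ≤ qf (Hm τ h ω) u fun l => pk η (l - a) := by rw [qf_pk Hm_sa hη]; positivity
    nlinarith [mul_le_mul_of_nonneg_left h5 hη.le, mul_le_mul_of_nonneg_left h6 h7]
  · rw [intervalIntegral.integral_const_mul, ← h2]
    exact (mul_le_mul_of_nonneg_left h3 (by positivity)).trans_eq (by ring)

lemma window (hη : 0 < η) {w θ : ℝ} (hw : η ≤ w) (hθ : 0 < θ) (hθ1 : θ ≤ 1) (α : ℝ)
    {S B : Finset (Fin d → ℤ)} (hS : S ⊆ B) :
    tt τ h (η / 2) α (α + w) S ω ≤ tt τ h η α (α + w) S ω +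
      (mm τ h η α (α + w) ω - tt τ h η α (α + w) B ω) +
      3 * θ * (mm τ h η α (α + w) ω + mm τ h (η / 2) α (α + w) ω) +
      (η * ((g τ h α η ω 0 0).im + (g τ h (α + w) η ω 0 0).im) +
        600 * (1 + θ⁻¹) * w ^ 2 * ∑ x ∈ B, dt τ h α w ω 0 x) := by
  have hα : α ≤ α + w := by linarith
  have hη2 := half_pos hη
  set c := fun x => (g τ h α w ω x 0).im / (g τ h α w ω 0 0).im
  set e := (1 + θ⁻¹) * (100 * w ^ 2 * ∑ x ∈ B, dt τ h α w ω 0 x)
  have he : 0 ≤ e := mul_nonneg (by positivity) (mul_nonneg (by positivity)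
    (sum_nonneg fun x _ => dt_nonneg (hη.trans_le hw) _ _))
  have key : ∀ η', 0 < η' → η' ≤ w → ∀ S ⊆ B, tt τ h η' α (α + w) S ω ≤ (1 + θ) *
      ((∑ x ∈ S, c x ^ 2) * tt τ h η' α (α + w) {0} ω) + e ∧
      (∑ x ∈ S, c x ^ 2) * tt τ h η' α (α + w) {0} ω ≤ (1 + θ) * tt τ h η' α (α + w) S ω + e := by
    intro η' h1 h2 S hS
    have h3 := fun x => continuous_im.comp (cont_ga (τ := τ) (h := h) (ω := ω) h1 x 0)
    have h4 : (∑ x ∈ S, c x ^ 2) * tt τ h η' α (α + w) {0} ω =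
        ∫ a in α..α + w, η' * ∑ x ∈ S, (c x * (g τ h a η' ω 0 0).im) ^ 2 := by
      simp only [tt, ← intervalIntegral.integral_const_mul, sum_singleton, mul_pow, ← sum_mul,
        mul_left_comm η']
    have h5 := mul_le_mul_of_nonneg_left (err_le (τ := τ) (h := h) (ω := ω) h1 h2 α B)
      (by positivity : 0 ≤ 1 + θ⁻¹)
    rw [h4]
    refine ⟨(int_sq_le hS h3 (fun x => (h3 0).const_mul (c x)) h1.le hθ hα).trans
      (add_le_add_right h5 _), (int_sq_le hS (fun x => (h3 0).const_mul (c x)) h3 h1.le hθ hα).trans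
      (add_le_add_right (le_trans (le_of_eq ?_) h5) _)⟩
    simp only [sub_sq_comm (c _ * _), comp, c]
  have h2 : η / 2 ≤ w := by linarith
  refine (arith hθ.le hθ1 (tt_nonneg hη2 hα _) (sum_nonneg fun _ _ => sq_nonneg _)
    (sum_le_sum_of_subset_of_nonneg hS fun _ _ _ => sq_nonneg _) he he (mul_nonneg hη.le (add_pos (im_g_pos hη 0) (im_g_pos hη 0)).le)
    (tt_nonneg hη hα _) (tt_nonneg hη2 hα _) (key _ hη2 h2 S hS).1 (key _ hη hw S hS).2
    (key _ hη2 h2 B subset_rfl).2 (key _ hη hw B subset_rfl).1 (key _ hη hw B subset_rfl).2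
    (tt_le hη hα _) (tt_le hη hα _) (tt_le hη2 hα _) (mm_half hη _ _)).trans_eq ?_
  simp only [e]; ring

lemma T_half (hη : 0 < η) {w θ : ℝ} (hw : η ≤ w) (hθ : 0 < θ) (hθ1 : θ ≤ 1) (α : ℝ) (N : ℕ)
    (R B : Finset (Fin d → ℤ)) :
    T τ h (η / 2) α (α + N * w) R ω ≤ T τ h η α (α + N * w) R ω +
      (T τ h η α (α + N * w) B ω + T τ h (η / 2) α (α + N * w) B ω + 6 * Real.pi * θ +
      ∑ j ∈ range N, (η * ((g τ h (α + j * w) η ω 0 0).im + (g τ h (α + j * w + w) η ω 0 0).im) +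
        600 * (1 + θ⁻¹) * w ^ 2 * ∑ x ∈ B, dt τ h (α + j * w) w ω 0 x)) := by
  have hη2 := half_pos hη
  have hα : α ≤ α + N * w := le_add_of_nonneg_right (mul_nonneg N.cast_nonneg (hη.le.trans hw))
  have h1 : ∀ f : ℝ → ℝ, Continuous f → ∑ j ∈ range N, ∫ a in α + j * w..α + j * w + w, f a =
      ∫ a in α..α + N * w, f a := fun f hf => by
    simpa [add_mul, add_assoc] using intervalIntegral.sum_integral_adjacent_intervals
      (a := fun j : ℕ => α + j * w) (n := N) (μ := volume) fun j _ => hf.intervalIntegrable _ _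
  have h2 : ∀ η', 0 < η' → ∀ S, ∑ j ∈ range N, tt τ h η' (α + j * w) (α + j * w + w) S ω =
      tt τ h η' α (α + N * w) S ω := fun η' h S => h1 _ (cont_tt h S)
  have h3 : ∀ η', 0 < η' → ∑ j ∈ range N, mm τ h η' (α + j * w) (α + j * w + w) ω =
      mm τ h η' α (α + N * w) ω := fun η' h => h1 _ (((cont_Pa h _).norm.pow 2).const_mul _)
  have h4 := sum_le_sum fun j (_ : j ∈ range N) => window (τ := τ) (h := h) (ω := ω) hη hw hθ hθ1
    (α + j * w) (sdiff_subset (s := B) (t := R))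
  rw [sum_add_distrib, sum_add_distrib, sum_add_distrib, ← mul_sum, sum_add_distrib,
    sum_sub_distrib, h2 _ hη, h2 _ hη, h2 _ hη2, h3 _ hη, h3 _ hη2] at h4
  have h5 := tt_sdiff (τ := τ) (h := h) (ω := ω) hη α (α + N * w) (subset_union_right (s₁ := B) (s₂ := R))
  have h6 := tt_sdiff (τ := τ) (h := h) (ω := ω) hη2 α (α + N * w) (subset_union_right (s₁ := B) (s₂ := R))
  have h7 := tt_sdiff (τ := τ) (h := h) (ω := ω) hη2 α (α + N * w) (subset_union_left (s₁ := B) (s₂ := R))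
  rw [union_sdiff_right] at h5 h6
  simp only [T_eq hη, T_eq hη2]
  nlinarith [tt_le (τ := τ) (h := h) (ω := ω) hη hα (B ∪ R), mm_le (τ := τ) (h := h) (ω := ω) hη hα,
    mm_le (τ := τ) (h := h) (ω := ω) hη2 hα, tt_nonneg (τ := τ) (h := h) (ω := ω) hη2 hα ((B ∪ R) \ B)]

end Crest.Agent.N334.End
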