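import Crest.Agent.N334.End.TV
import Crest.Agent.N334.End.Defs

/-!
# Row 334 (helper52): transfer from finite volume, and almost sure tightness
-/

set_option autoImplicit false

open Filter Topology Complex MeasureTheory Function
open Finset hiding box
open scoped InnerProductSpace ComplexConjugate ENNReal Matrix.Norms.L2Operator

namespace Crest.Agent.N334.End

open Crest.MathPhysics.Anderson Crest.Agent.N334.Soft Crest.Agent.N336.Q

variable {h η α β : ℝ} {z : ℂ} {ω : (Fin 2 → ℤ) → unitInterval} {n : ℕ}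

lemma cont_out {d : ℕ} (B : Finset (Fin d → ℤ)) : Continuous (out B) := by
  refine (continuous_id.sub (continuous_finsetSum _ fun z _ =>
    (lp.isometry_single (E := fun _ : Fin d → ℤ => ℂ) z).continuous.comp ?_)).norm
  simp only [← inner_dl]; fun_prop

lemma tendsto_out (u : Ell2 2) : Tendsto (fun R => out (box R) u) atTop (𝓝 0) := by
  have h1 : Tendsto box atTop atTop := tendsto_atTop_finset_of_monotone
    (fun R R' h => Fintype.piFinset_subset _ _ fun j => Icc_subset_Icc (by omega) (by omega))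
    fun x => ⟨univ.sup fun j => (x j).natAbs, Fintype.mem_piFinset.2 fun j => by
      have := le_sup (f := fun j => (x j).natAbs) (mem_univ j)
      simp only [mem_Icc]; omega⟩
  have h2 := ((lp.hasSum_single (by norm_num) u).comp h1).const_sub u |>.norm
  rwa [sub_self, norm_zero] at h2

lemma sa_fin (F : FinVol n) : IsSelfAdjoint (ap (F.H h ω)) :=
  (IsSelfAdjoint.map (F.herm h ω).isSelfAdjoint (Matrix.toEuclideanCLM (𝕜 := ℂ) (n := F.ι)) :)

lemma col_eq (F : FinVol n) (hz : z.im ≠ 0) (y : F.ι) :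
    G (ap (F.H h ω)) z (EuclideanSpace.single F.o 1) y =
      (F.H h ω - z • (1 : Matrix F.ι F.ι ℂ))⁻¹ y F.o := by
  have h1 : IsUnit (F.H h ω - z • (1 : Matrix F.ι F.ι ℂ)) := by
    refine (isUnit_map_iff (Matrix.toEuclideanCLM (𝕜 := ℂ) (n := F.ι)) _).1 ?_
    rw [map_sub, map_smul, map_one]
    exact isUnit_sub (sa_fin F) hz
  rw [G_eq (sa_fin F) hz (w := ap (F.H h ω - z • (1 : Matrix F.ι F.ι ℂ))⁻¹ (.single F.o 1))]
  · simp [ap_apply]
  · conv_rhs => rw [← ap_one (EuclideanSpace.single F.o 1),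
      ← Matrix.mul_nonsing_inv _ ((Matrix.isUnit_iff_isUnit_det _).1 h1), ap_mul, ap_sub, ap_smul,
      ap_one]

lemma cont_col (F : FinVol n) (hη : 0 < η) : Continuous fun p : ℝ × ((Fin 2 → ℤ) → unitInterval) =>
    G (ap (F.H h p.2)) ⟨p.1, η⟩ (EuclideanSpace.single F.o 1) := by
  refine continuous_G (fun _ => sa_fin F) (fun w => ?_) (by simp only [mk_eq_add_mul_I]; fun_prop)
    hη.ne' (fun _ => rfl) _
  refine (PiLp.continuous_toLp 2 _).comp (continuous_pi fun y => continuous_finsetSum _ fun x _ =>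
    Continuous.mul ?_ continuous_const)
  simp only [FinVol.H, Matrix.add_apply, Matrix.diagonal_apply, centredPotential]
  split_ifs <;> fun_prop

lemma norm_ext (F : FinVol n) (u : Vec F.ι) : ‖F.ext u‖ = ‖u‖ := by
  rw [← sq_eq_sq₀ (norm_nonneg _) (norm_nonneg _), norm_sq_of_supp _ (univ.map F.e), sum_map,
    EuclideanSpace.norm_sq_eq]
  · exact sum_congr rfl fun y _ => by simp [F.ext_apply, F.e.injective.eq_iff]
  · exact fun z hz => (F.ext_apply u z).trans (sum_eq_zero fun y _ => if_neg fun h =>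
      hz (mem_map.2 ⟨y, mem_univ y, h.symm⟩))

lemma norm_ext_col_sub (F : FinVol n) (hz : z.im ≠ 0) :
    ‖F.ext (G (ap (F.H h ω)) z (EuclideanSpace.single F.o 1)) - G (Hm 1 h ω) z (dl 0)‖ ≤
      (|z.im|⁻¹ * ‖Hm 1 h ω - z • 1‖ + 1) * out (box n) (G (Hm 1 h ω) z (dl 0)) := by
  have hu := HG (H := Hm 1 h ω) Hm_sa hz (dl 0)
  set u := G (Hm 1 h ω) z (dl 0)
  let w : Vec F.ι := WithLp.toLp 2 fun y => fs (box n) u (F.e y)
  have h1 : F.Sup n w := fun y hy j => by
    have : F.e y ∈ box n := by by_contra h; exact hy (by simp [w, fs_apply, h])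
    exact abs_le.2 (mem_Icc.1 (Fintype.mem_piFinset.1 this j))
  have h2 : F.ext w = fs (box n) u := by
    ext x
    by_cases hx : ∃ y, F.e y = x
    · obtain ⟨y, rfl⟩ := hx
      simp [F.ext_apply, F.e.injective.eq_iff, w]
    · rw [F.ext_apply, sum_eq_zero fun y _ => if_neg fun h => hx ⟨y, h.symm⟩, fs_apply, if_neg]
      exact fun hb => hx (F.cover x fun j =>
        (abs_le.2 (mem_Icc.1 (Fintype.mem_piFinset.1 hb j))).trans (by omega))
  have h3 : F.ext (EuclideanSpace.single F.o 1) = dl 0 := (F.ext_orb h ω 0 n.zero_le).2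
  have h4 := norm_G_le (sa_fin (h := h) (ω := ω) F) hz
    (EuclideanSpace.single F.o 1 - (ap (F.H h ω) w - z • w))
  rw [map_sub, G_eq (sa_fin F) hz (w := w) rfl, ← norm_ext, ← norm_ext F (_ - _), map_sub, map_sub,
    map_sub, map_smul, F.ext_H h ω h1, h2, h3, ← hu, ← le_inv_mul_iff₀ (abs_pos.2 hz)] at h4
  have h5 := (Hm 1 h ω - z • 1).le_opNorm (u - fs (box n) u)
  rw [map_sub] at h5
  refine (norm_sub_le_norm_sub_add_norm_sub _ (fs (box n) u) _).trans ?_
  rw [add_mul, one_mul, norm_sub_rev _ u, mul_assoc]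
  exact add_le_add_left (h4.trans (mul_le_mul_of_nonneg_left h5 (by positivity))) _

lemma lint_T_le (hη : 0 < η) (hαβ : α ≤ β) {q : ℝ} (hq : ∀ n, ∃ F : FinVol n,
    ∫⁻ a in Set.Ioc α β, ∫⁻ ω, ENNReal.ofReal (η ^ 2 * F.mom h ⟨a, η⟩ ω) ∂siteMeasure (Fin 2 → ℤ) ≤
      ENNReal.ofReal q) {r : ℕ} (hr : 0 < r) :
    ∫⁻ ω, ENNReal.ofReal (T 1 h η α β (box r) ω) ∂siteMeasure _ ≤
      ENNReal.ofReal ((η * r ^ 2)⁻¹ * q) := by
  choose F hF using hq
  have h1 : Continuous fun p : ℝ × ((Fin 2 → ℤ) → unitInterval) =>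
      η * out (box r) (P (Hm 1 h p.2) p.1 η (dl 0)) ^ 2 :=
    (((cont_out _).comp ((cont_P hη _).comp continuous_swap)).pow 2).const_mul η
  have h2 : ∀ n, Measurable fun p : ℝ × ((Fin 2 → ℤ) → unitInterval) =>
      ENNReal.ofReal (η ^ 2 * (F n).mom h ⟨p.1, η⟩ p.2) := fun n => by
    have := cont_col (h := h) (F n) hη
    simp only [FinVol.mom, ← col_eq (z := ⟨_, η⟩) (F n) hη.ne']
    exact Continuous.measurable (ENNReal.continuous_ofReal.comp (by fun_prop))
  have h3 : ∀ ω, ENNReal.ofReal (T 1 h η α β (box r) ω) = ∫⁻ a in Set.Ioc α β,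
      ENNReal.ofReal (η * out (box r) (P (Hm 1 h ω) a η (dl 0)) ^ 2) := fun ω => by
    rw [T, intervalIntegral.integral_of_le hαβ]
    exact ofReal_integral_eq_lintegral_ofReal ((((cont_out _).comp (cont_Pa hη _)).pow 2).const_mul
      η).integrableOn_Ioc (Eventually.of_forall fun a => by positivity)
  simp only [h3]
  rw [← lintegral_prod_symm _ h1.measurable.ennreal_ofReal.aemeasurable,
    ENNReal.ofReal_mul (by positivity)]
  refine le_trans (lintegral_mono fun p => ?_) ((lintegral_liminf_le (u := atTop) fun n =>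
    (h2 n).const_mul (ENNReal.ofReal (η * r ^ 2)⁻¹)).trans (liminf_le_of_frequently_le'
      (Frequently.of_forall fun n => ?_)))
  · have h4 : Tendsto (fun n => (F n).ext (G (ap ((F n).H h p.2)) ⟨p.1, η⟩
        (EuclideanSpace.single (F n).o 1))) atTop (𝓝 (G (Hm 1 h p.2) ⟨p.1, η⟩ (dl 0))) :=
      tendsto_iff_norm_sub_tendsto_zero.2 (squeeze_zero (fun _ => norm_nonneg _)
        (fun n => norm_ext_col_sub (F n) hη.ne') (by simpa using (tendsto_out _).const_mul _))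
    have h5 := ENNReal.tendsto_ofReal (((((cont_out (box r)).tendsto _).comp h4).pow 2).const_mul η)
    refine le_trans (ENNReal.ofReal_le_ofReal (mul_le_mul_of_nonneg_left (pow_le_pow_left₀
      (norm_nonneg _) (lp.norm_mono two_ne_zero fun x => ?_) 2) hη.le))
      (h5.liminf_eq.symm.trans_le (liminf_le_liminf (Eventually.of_forall fun n => ?_)))
    · simp only [lp.coeFn_sub, Pi.sub_apply, fs_apply]
      split_ifs
      · simp
      · rw [sub_zero, sub_zero, P_apply hη, norm_real]; exact abs_im_le_norm _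
    · rw [← ENNReal.ofReal_mul (by positivity), comp, FinVol.tail_ext, tl_sq]
      refine ENNReal.ofReal_le_ofReal ?_
      rw [le_inv_mul_iff₀ (by positivity), show ∀ s, η * r ^ 2 * (η * s) = η ^ 2 * (r ^ 2 * s) from
        fun s => by ring, mul_sum]
      refine mul_le_mul_of_nonneg_left ((sum_le_sum fun y hy => ?_).trans
        (sum_le_sum_of_subset_of_nonneg (subset_univ _) fun _ _ _ => by positivity)) (by positivity)
      obtain ⟨j, hj⟩ := (mem_filter.1 hy).2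
      rw [col_eq _ hη.ne']
      refine mul_le_mul_of_nonneg_right (le_trans ?_ (single_le_sum
        (fun j _ => sq_nonneg ((F n).e y j : ℝ)) (mem_univ j))) (by positivity)
      rw [← sq_abs ((F n).e y j : ℝ)]
      exact pow_le_pow_left₀ (by positivity) (by exact_mod_cast hj.le) 2
  · rw [lintegral_const_mul _ (h2 n), lintegral_prod _ (h2 n).aemeasurable]
    exact mul_le_mul_right (hF n) _

/-- nonnegative random variable with expectation at most `C` -/
structure EB (f : ((Fin 2 → ℤ) → unitInterval) → ℝ) (C : ℝ) : Prop where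
  meas : Measurable f
  nn : ∀ ω, 0 ≤ f ω
  hC : 0 ≤ C
  le : ∫⁻ ω, ENNReal.ofReal (f ω) ∂siteMeasure _ ≤ ENNReal.ofReal C

section
variable {f k : ((Fin 2 → ℤ) → unitInterval) → ℝ} {C D : ℝ}

lemma EB.add (hf : EB f C) (hk : EB k D) : EB (fun ω => f ω + k ω) (C + D) :=
  ⟨hf.1.add hk.1, fun ω => add_nonneg (hf.2 ω) (hk.2 ω), add_nonneg hf.3 hk.3, by
    simp only [ENNReal.ofReal_add (hf.2 _) (hk.2 _), ENNReal.ofReal_add hf.3 hk.3,
      lintegral_add_left hf.1.ennreal_ofReal]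
    exact add_le_add hf.4 hk.4⟩

lemma EB.mul (hf : EB f C) (hD : 0 ≤ D) : EB (fun ω => D * f ω) (D * C) :=
  ⟨hf.1.const_mul D, fun ω => mul_nonneg hD (hf.2 ω), mul_nonneg hD hf.3, by
    simp only [ENNReal.ofReal_mul hD, lintegral_const_mul _ hf.1.ennreal_ofReal]
    exact mul_le_mul_right hf.4 _⟩

lemma EB.const (hC : 0 ≤ C) : EB (fun _ => C) C := ⟨measurable_const, fun _ => hC, hC, by simp⟩

lemma EB.mono (hf : EB f C) (h : C ≤ D) : EB f D :=
  ⟨hf.1, hf.2, hf.3.trans h, hf.4.trans (ENNReal.ofReal_le_ofReal h)⟩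

lemma EB.sum {ι : Type} (s : Finset ι) {f : ι → ((Fin 2 → ℤ) → unitInterval) → ℝ}
    (hf : ∀ i, EB (f i) C) : EB (fun ω => ∑ i ∈ s, f i ω) (#s * C) := by
  induction s using Finset.cons_induction with
  | empty => simpa using EB.const le_rfl
  | cons i s hi ih => simpa [add_mul, add_comm] using (hf i).add ih

lemma ae_summable {X : ℕ → ((Fin 2 → ℤ) → unitInterval) → ℝ} {C : ℕ → ℝ} (hX : ∀ k, EB (X k) (C k))
    (hC : Summable C) : ∀ᵐ ω ∂siteMeasure _, Summable fun k => X k ω := by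
  have h1 : ∫⁻ ω, ∑' k, ENNReal.ofReal (X k ω) ∂siteMeasure _ ≠ ⊤ := by
    rw [lintegral_tsum fun k => (hX k).1.ennreal_ofReal.aemeasurable]
    refine ne_top_of_le_ne_top ?_ (ENNReal.tsum_le_tsum fun k => (hX k).4)
    rw [← ENNReal.ofReal_tsum_of_nonneg (fun k => (hX k).3) hC]
    exact ENNReal.ofReal_ne_top
  filter_upwards [ae_lt_top (.tsum fun k => (hX k).1.ennreal_ofReal) h1] with ω hω
  simpa [ENNReal.toReal_ofReal ((hX _).2 ω)] using ENNReal.summable_toReal hω.ne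

end

lemma step (hh : 0 < h) (hαβ : α < β) : ∃ K, ∀ η c : ℝ, 0 < η → 0 < c → c ≤ 1 → 2 * c ≤ β - α →
    η ≤ c ^ 4 → (∀ r : ℕ, 0 < r → EB (T 1 h η α β (box r)) ((η * r ^ 2)⁻¹ * c ^ 4)) →
    (∀ r : ℕ, 0 < r → EB (T 1 h (η / 2) α β (box r)) ((η / 2 * r ^ 2)⁻¹ * c ^ 4)) →
    ∃ X, EB X (K * c) ∧ ∀ R ω, T 1 h (η / 2) α β R ω ≤ T 1 h η α β R ω + X ω := by
  set ρ := Real.pi / (2 * h)
  have hρ : 0 < ρ := by have := Real.pi_pos; positivity
  refine ⟨3 + 6 * Real.pi + 4 * ρ + 30000 * (β - α) ^ 2 * ρ ^ 2, fun η c hη hc c1 c2 c3 h1 h2 => ?_⟩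
  have c4 : η ≤ c ^ 3 := c3.trans (pow_le_pow_of_le_one hc.le c1 (by norm_num))
  have c5 : η ≤ c := c3.trans (pow_le_of_le_one hc.le c1 (by norm_num))
  set N := ⌈c / η⌉₊
  have hN : c / η ≤ N := Nat.le_ceil _
  have hN0 : (0 : ℝ) < N := (div_pos hc hη).trans_le hN
  have hN1 : N * η ≤ 2 * c := by
    have := (Nat.ceil_lt_add_one (div_pos hc hη).le).le
    rw [div_add_one hη.ne', le_div_iff₀ hη] at this
    linarith
  set r := ⌈√(c ^ 3 / η)⌉₊
  have hs : 1 ≤ √(c ^ 3 / η) := Real.one_le_sqrt.2 ((one_le_div hη).2 c4)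
  have hr : c ^ 3 ≤ η * r ^ 2 := by
    have := pow_le_pow_left₀ (by positivity) (Nat.le_ceil √(c ^ 3 / η)) 2
    rwa [Real.sq_sqrt (by positivity), div_le_iff₀' hη] at this
  have hr0 : 0 < r := Nat.ceil_pos.2 (by linarith)
  have hB : (#(box r) : ℝ) ≤ 25 * (c ^ 3 / η) := by
    have h3 : (#(box r) : ℝ) = (2 * r + 1) ^ 2 := by
      have : (r + 1 + r : ℤ).toNat = 2 * r + 1 := by omega
      simp [box, this]
    have := (Nat.ceil_lt_add_one (Real.sqrt_nonneg (c ^ 3 / η))).le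
    rw [h3, ← Real.sq_sqrt (by positivity : 0 ≤ c ^ 3 / η)]
    nlinarith
  set w := (β - α) / N with hw
  have hw1 : η ≤ w := by rw [le_div_iff₀ hN0]; linarith
  have hw0 := hη.trans_le hw1
  have hβ : β = α + N * w := by rw [hw]; field_simp; ring
  have hW : ∀ a, EB (fun ω => (g 1 h a η ω 0 0).im) ρ := fun a =>
    ⟨(continuous_im.comp (cont_g' hη 0 0)).measurable, fun _ => (im_g_pos hη 0).le, hρ.le,
      wegner hh hη 0⟩
  have hM : ∀ a x, EB (fun ω => dt 1 h a w ω 0 x) (ρ ^ 2) := fun a x =>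
    ⟨(cont_dt hw0 0 x).measurable, fun _ => dt_nonneg hw0 0 x, by positivity, minami hh hw0 0 x⟩
  refine ⟨_, ((((h1 r hr0).add (h2 r hr0)).add (EB.const (C := 6 * Real.pi * c) (by positivity))).add
    (EB.sum (range N) fun j => (((hW (α + j * w)).add (hW (α + j * w + w))).mul hη.le).add
      ((EB.sum (box r) (hM (α + j * w))).mul (D := 600 * (1 + c⁻¹) * w ^ 2)
        (by positivity)))).mono ?_, fun R ω => by
      rw [hβ]; exact T_half hη hw1 hc c1 α N R (box r)⟩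
  have k1 : (η * r ^ 2)⁻¹ * c ^ 4 ≤ c := by rw [inv_mul_le_iff₀ (by positivity)]; nlinarith
  have k2 : (η / 2 * r ^ 2)⁻¹ * c ^ 4 ≤ 2 * c := by rw [inv_mul_le_iff₀ (by positivity)]; nlinarith
  have k3 : N * ((1 + c⁻¹) * w ^ 2 * #(box r)) ≤ 50 * (β - α) ^ 2 * c := by
    have : 1 + c⁻¹ ≤ 2 * c⁻¹ := by linarith [one_le_inv₀ hc |>.2 c1]
    calc _ ≤ N * (2 * c⁻¹ * w ^ 2 * (25 * (c ^ 3 / η))) := mul_le_mul_of_nonneg_left (mul_le_mul
          (mul_le_mul_of_nonneg_right this (sq_nonneg w)) hB (Nat.cast_nonneg _) (by positivity)) hN0.le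
      _ = 50 * (β - α) ^ 2 * c * (c / η / N) := by
        generalize N = N at hw hN0; rw [hw]; field_simp; ring
      _ ≤ _ := mul_le_of_le_one_right (by positivity) ((div_le_one hN0).2 hN)
  rw [card_range]
  nlinarith [mul_le_mul_of_nonneg_left k3 (sq_nonneg ρ), mul_le_mul_of_nonneg_left hN1 hρ.le]

lemma tendsto_T (hη : 0 < η) :
    Tendsto (fun R => T 1 h η α β (box R) ω) atTop (𝓝 0) := by
  have h1 := cont_Pa (τ := 1) (h := h) (ω := ω) hη (dl 0)
  have := intervalIntegral.tendsto_integral_filter_of_dominated_convergence (μ := volume) (a := α)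
    (b := β) (l := atTop) (F := fun R a => η * out (box R) (P (Hm 1 h ω) a η (dl 0)) ^ 2)
    (f := fun _ => 0) (fun a => η * ‖P (Hm 1 h ω) a η (dl 0)‖ ^ 2)
    (Eventually.of_forall fun R => ((((cont_out _).comp h1).pow 2).const_mul η).aestronglyMeasurable)
    (Eventually.of_forall fun R => Eventually.of_forall fun a _ => by
      rw [Real.norm_of_nonneg (by positivity), out_sq]
      exact mul_le_mul_of_nonneg_left (sub_le_self _ (by positivity)) hη.le)
    (Continuous.intervalIntegrable (by fun_prop) _ _)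
    (Eventually.of_forall fun a _ => by simpa using ((tendsto_out _).pow 2).const_mul η)
  rwa [intervalIntegral.integral_zero] at this

theorem ae_tight (hh : 0 < h) (hαβ : α < β) (hQ : QInt h α β) : ∀ᵐ ω ∂siteMeasure (Fin 2 → ℤ),
    ∀ ε > 0, ∃ B, ∀ᶠ k in atTop, T 1 h (2⁻¹ ^ k) α β B ω ≤ ε := by
  obtain ⟨b, hb, hQ⟩ := hQ
  obtain ⟨K, hK⟩ := step hh hαβ
  let c : ℕ → ℝ := fun k => |b k| + |b (k + 1)| + 0.9 ^ k
  have hc : Summable c := (hb.abs.add ((summable_nat_add_iff 1).2 hb.abs)).add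
    (summable_geometric_of_lt_one (by norm_num) (by norm_num))
  have h1 : ∀ (k : ℕ) (c : ℝ), |b k| ≤ c → (∀ n, ∃ F : FinVol n, ∫⁻ a in Set.Ioc α β, ∫⁻ ω, ENNReal.ofReal
      ((2⁻¹ ^ k) ^ 2 * F.mom h ⟨a, 2⁻¹ ^ k⟩ ω) ∂siteMeasure (Fin 2 → ℤ) ≤ ENNReal.ofReal (b k ^ 4)) →
      ∀ r : ℕ, 0 < r → EB (T 1 h (2⁻¹ ^ k) α β (box r)) (((2⁻¹ : ℝ) ^ k * r ^ 2)⁻¹ * c ^ 4) :=
    fun k c hc hq r hr => EB.mono ⟨(cont_T (by positivity) _ _ _).measurable,
      fun _ => T_nonneg (by positivity) hαβ.le _, by positivity,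
      lint_T_le (by positivity) hαβ.le hq hr⟩ (mul_le_mul_of_nonneg_left (by
        rw [← Even.pow_abs (by decide)]; exact pow_le_pow_left₀ (abs_nonneg _) hc 4) (by positivity))
  obtain ⟨k₀, hk₀⟩ := eventually_atTop.1 ((hQ.and ((tendsto_add_atTop_nat 1).eventually hQ)).and
    ((hc.tendsto_atTop_zero.eventually (ge_mem_nhds one_pos)).and
      (hc.tendsto_atTop_zero.eventually (ge_mem_nhds (half_pos (sub_pos.2 hαβ))))))
  have h2 : ∀ k, ∃ X, EB X (K * c (k + k₀)) ∧ ∀ R ω, T 1 h (2⁻¹ ^ (k + k₀ + 1)) α β R ω ≤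
      T 1 h (2⁻¹ ^ (k + k₀)) α β R ω + X ω := fun k => by
    obtain ⟨⟨q1, q2⟩, q3, q4⟩ := hk₀ (k + k₀) le_add_self
    generalize k + k₀ = k at q1 q2 q3 q4
    have e : (2⁻¹ : ℝ) ^ (k + 1) = 2⁻¹ ^ k / 2 := by rw [pow_succ]; ring
    have := abs_nonneg (b k); have := abs_nonneg (b (k + 1))
    have h0 : (0 : ℝ) < 0.9 ^ k := by positivity
    rw [e]
    refine hK _ _ (by positivity) (by positivity) q3 (by linarith) ?_
      (h1 k _ (by simp only [c]; linarith) q1) (e ▸ h1 (k + 1) _ (by simp only [c]; linarith) q2)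
    refine le_trans ?_ (pow_le_pow_left₀ h0.le (by simp only [c]; linarith) 4)
    rw [← pow_mul, mul_comm, pow_mul]
    exact pow_le_pow_left₀ (by norm_num) (by norm_num) k
  choose X hX hX' using h2
  filter_upwards [ae_summable hX (((summable_nat_add_iff k₀).2 hc).mul_left K)] with ω hω ε hε
  obtain ⟨k₁, hk₁⟩ := ((tendsto_sum_nat_add fun k => X k ω).eventually
    (ge_mem_nhds (half_pos hε))).exists
  obtain ⟨R, hR⟩ := ((tendsto_T (h := h) (ω := ω) (η := 2⁻¹ ^ (k₁ + k₀)) (α := α) (β := β)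
    (by positivity)).eventually (ge_mem_nhds (half_pos hε))).exists
  have h3 : ∀ j, T 1 h (2⁻¹ ^ (j + k₁ + k₀)) α β (box R) ω ≤ ε / 2 + ∑ i ∈ range j, X (i + k₁) ω := by
    intro j
    induction j with
    | zero => simpa using hR
    | succ j ih =>
      rw [sum_range_succ, show j + 1 + k₁ + k₀ = j + k₁ + k₀ + 1 by ring]
      linarith [hX' (j + k₁) (box R) ω]
  refine ⟨box R, eventually_atTop.2 ⟨k₁ + k₀, fun k hk => ?_⟩⟩
  obtain ⟨j, rfl⟩ := Nat.exists_eq_add_of_le' hk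
  have := ((summable_nat_add_iff k₁).2 hω).sum_le_tsum (range j) fun i _ => (hX _).2 ω
  rw [← add_assoc]
  linarith [h3 j]

end Crest.Agent.N334.End
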